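import Vale.Agent.P356.Main
import Mathlib.LinearAlgebra.Matrix.Charpoly.Basic
import Mathlib.Analysis.Matrix.Spectrum

/-! # A region and its complement -/

namespace Vale.Agent.P356

open Matrix Polynomial
open scoped ComplexOrder

noncomputable section

variable {L q : ℕ}

theorem entropy_eq_roots (A : Finset (Site L)) (Ω : Cfg L q → ℂ) :
    entropy A Ω = ((reduced A Ω).charpoly.roots.map fun z : ℂ => Real.negMulLog z.re).sum := by
  rw [reduced, (Matrix.isHermitian_mul_conjTranspose_self (amp A Ω)).roots_charpoly_eq_eigenvalues,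
    Multiset.map_map]
  simp [entropy]

/-- A pure state has the same entropy on a region and on its complement. -/
theorem entropy_compl (A : Finset (Site L)) (Ω : Cfg L q → ℂ) :
    entropy Aᶜ Ω = entropy A Ω := by
  classical
  set P := amp A Ω with hP
  let α : ({x // x ∈ Aᶜ} → Fin q) ≃ ({x // x ∉ A} → Fin q) :=
    Equiv.arrowCongr (Equiv.subtypeEquivRight fun x => Finset.mem_compl) (Equiv.refl _)
  let γ : ({x // x ∉ Aᶜ} → Fin q) ≃ ({x // x ∈ A} → Fin q) :=
    Equiv.arrowCongr (Equiv.subtypeEquivRight fun x => by simp) (Equiv.refl _)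
  have h1 : amp Aᶜ Ω = Pᵀ.submatrix α γ := by
    ext a r
    simp only [amp, Matrix.submatrix_apply, Matrix.transpose_apply, hP]
    congr 1
    funext x
    by_cases hx : x ∈ A
    · rw [glue_not_mem Aᶜ _ _ (by simpa using hx), glue_mem A _ _ hx]; rfl
    · rw [glue_mem Aᶜ _ _ (by simpa using hx), glue_not_mem A _ _ hx]; rfl
  have h2 : reduced Aᶜ Ω = Matrix.reindex α.symm α.symm (Pᴴ * P)ᵀ := by
    rw [reduced, h1, Matrix.conjTranspose_submatrix, Matrix.submatrix_mul_equiv,
      Matrix.transpose_mul]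
    simp only [Matrix.reindex_apply, Equiv.symm_symm]
    rfl
  rw [entropy_eq_roots, entropy_eq_roots, h2, Matrix.charpoly_reindex, Matrix.charpoly_transpose]
  have h3 := congrArg (fun p : ℂ[X] => (p.roots.map fun z : ℂ => Real.negMulLog z.re).sum)
    (Matrix.charpoly_mul_comm' P Pᴴ)
  beta_reduce at h3
  rw [roots_mul (mul_ne_zero (pow_ne_zero _ X_ne_zero) (charpoly_monic _).ne_zero),
    roots_mul (mul_ne_zero (pow_ne_zero _ X_ne_zero) (charpoly_monic _).ne_zero)] at h3
  simp [roots_pow, Multiset.map_nsmul, Multiset.sum_nsmul] at h3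
  exact h3.symm

theorem bdry_compl (A : Finset (Site L)) : (bdry Aᶜ).card = (bdry A).card := by
  refine Finset.card_equiv (Equiv.prodComm _ _) fun p => ?_
  simp only [bdry, Finset.mem_filter, Finset.mem_univ, true_and, Finset.mem_compl, not_not,
    Equiv.prodComm_apply, Prod.fst_swap, Prod.snd_swap]
  rw [dist1_comm]; tauto

/-- The entropy is below its maximal value by a volume fraction, up to a boundary term. -/
theorem no_saturation_min (q R : ℕ) (J Δ : ℝ) (hq : 2 ≤ q) (hJ : 0 < J) (hΔ : 0 < Δ) :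
    ∃ c C : ℝ, 0 < c ∧ ∀ L : ℕ, ∀ h : Finset (Site L) → Matrix (Cfg L q) (Cfg L q) ℂ,
      IsAdmissible R J h → ∀ (E₀ : ℝ) (Ω : Cfg L q → ℂ), IsGappedGround (∑ X, h X) E₀ Δ Ω →
        ∀ A : Finset (Site L), entropy A Ω
          ≤ (Real.log q - c) * (min A.card Aᶜ.card : ℕ) + C * (bdry A).card := by
  obtain ⟨c, C, hc, hmain⟩ := no_saturation q R J Δ hq hJ hΔ
  refine ⟨c, C, hc, fun L h hh E₀ Ω hΩ A => ?_⟩
  rcases le_total A.card Aᶜ.card with hle | hle
  · rw [min_eq_left hle]; exact hmain L h hh E₀ Ω hΩ A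
  · rw [min_eq_right hle, ← entropy_compl, ← bdry_compl]; exact hmain L h hh E₀ Ω hΩ Aᶜ

end

end Vale.Agent.P356
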