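import Mathlib.Analysis.Matrix.Spectrum
import Mathlib.Analysis.SpecialFunctions.Log.NegMulLog
import Mathlib.LinearAlgebra.Matrix.PosDef

/-! # Gapped Hamiltonians on the square lattice and their entanglement entropy -/

namespace Vale.Agent.P356

open Matrix
open scoped ComplexOrder

noncomputable section

/-- The sites of the `L × L` box. -/
abbrev Site (L : ℕ) := Fin L × Fin L

/-- Configurations, indexing the product basis of the tensor product of one `ℂ^q` per site. -/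
abbrev Cfg (L q : ℕ) := Site L → Fin q

/-- The `ℓ¹` distance. -/
def dist1 {L : ℕ} (x y : Site L) : ℕ :=
  ((x.1 : ℕ) - y.1) + ((y.1 : ℕ) - x.1) + ((x.2 : ℕ) - y.2) + ((y.2 : ℕ) - x.2)

/-- The operator acts on the tensor factors in `X` and as the identity on the other factors. -/
def ActsOn {L q : ℕ} (X : Finset (Site L)) (G : Matrix (Cfg L q) (Cfg L q) ℂ) : Prop :=
  (∀ σ τ, (∃ x, x ∉ X ∧ σ x ≠ τ x) → G σ τ = 0) ∧
    ∀ σ τ σ' τ', (∀ x ∈ X, σ' x = σ x ∧ τ' x = τ x) → (∀ x, x ∉ X → σ x = τ x) →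
      (∀ x, x ∉ X → σ' x = τ' x) → G σ' τ' = G σ τ

/-- The operator norm is at most `J`. -/
def NormLE {ι : Type*} [Fintype ι] (G : Matrix ι ι ℂ) (J : ℝ) : Prop :=
  ∀ v : ι → ℂ, ∑ i, Complex.normSq ((G *ᵥ v) i) ≤ J ^ 2 * ∑ i, Complex.normSq (v i)

/-- One Hermitian term per nonempty set of diameter at most `R`, each of norm at most `J`. -/
def IsAdmissible {L q : ℕ} (R : ℕ) (J : ℝ)
    (h : Finset (Site L) → Matrix (Cfg L q) (Cfg L q) ℂ) : Prop :=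
  ∀ X, (h X).IsHermitian ∧ ActsOn X (h X) ∧ NormLE (h X) J ∧
    (h X ≠ 0 → X.Nonempty ∧ ∀ x ∈ X, ∀ y ∈ X, dist1 x y ≤ R)

/-- `Ω` is a unit eigenvector of `H` for `E₀` and `H - E₀ ≥ Δ (1 - |Ω⟩⟨Ω|)`. -/
def IsGappedGround {ι : Type*} [Fintype ι] (H : Matrix ι ι ℂ) (E₀ Δ : ℝ) (Ω : ι → ℂ) : Prop :=
  star Ω ⬝ᵥ Ω = 1 ∧ H *ᵥ Ω = (E₀ : ℂ) • Ω ∧
    ∀ φ : ι → ℂ, E₀ * (star φ ⬝ᵥ φ).re + Δ * ((star φ ⬝ᵥ φ).re - Complex.normSq (star Ω ⬝ᵥ φ))
      ≤ (star φ ⬝ᵥ (H *ᵥ φ)).re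

/-- The sites of `A` and the other sites together give a configuration. -/
def glue {L q : ℕ} (A : Finset (Site L)) (a : {x // x ∈ A} → Fin q)
    (r : {x // x ∉ A} → Fin q) : Cfg L q :=
  fun x => if hx : x ∈ A then a ⟨x, hx⟩ else r ⟨x, hx⟩

/-- The amplitudes of `Ω` as a matrix between `A` and the other sites. -/
def amp {L q : ℕ} (A : Finset (Site L)) (Ω : Cfg L q → ℂ) :
    Matrix ({x // x ∈ A} → Fin q) ({x // x ∉ A} → Fin q) ℂ :=
  fun a r => Ω (glue A a r)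

/-- The reduced density matrix of `A`: the partial trace of `|Ω⟩⟨Ω|` over the other sites. -/
def reduced {L q : ℕ} (A : Finset (Site L)) (Ω : Cfg L q → ℂ) :
    Matrix ({x // x ∈ A} → Fin q) ({x // x ∈ A} → Fin q) ℂ :=
  amp A Ω * (amp A Ω)ᴴ

/-- The entanglement entropy `-tr ρ_A log ρ_A`. -/
def entropy {L q : ℕ} (A : Finset (Site L)) (Ω : Cfg L q → ℂ) : ℝ :=
  ∑ i, Real.negMulLog ((Matrix.isHermitian_mul_conjTranspose_self (amp A Ω)).eigenvalues i)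

/-- The boundary edges, written from the inside to the outside. -/
def bdry {L : ℕ} (A : Finset (Site L)) : Finset (Site L × Site L) :=
  Finset.univ.filter fun p => p.1 ∈ A ∧ p.2 ∉ A ∧ dist1 p.1 p.2 = 1

end

end Vale.Agent.P356
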