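import Vale.Agent.P356.Witness
import Mathlib.Algebra.BigOperators.Ring.Finset
import Mathlib.Analysis.Matrix.PosDef

/-! # Entropy deficit from local observables on disjoint blocks -/

namespace Vale.Agent.P356

open Matrix
open scoped ComplexOrder

noncomputable section

/-- The entropy is at most the Shannon entropy of the diagonal in any orthonormal basis. -/
theorem entropy_le_diag {C D : Type*} [Fintype C] [DecidableEq C] [Fintype D] [DecidableEq D]
    {ρ : Matrix C C ℂ} (hρ : ρ.PosSemidef) (hH : ρ.IsHermitian) {U : Matrix C D ℂ}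
    (hU : Uᴴ * U = 1) (hU' : U * Uᴴ = 1) :
    ∑ i, Real.negMulLog (hH.eigenvalues i) ≤ ∑ k, Real.negMulLog (((Uᴴ * ρ * U) k k).re) := by
  set V : Matrix C C ℂ := (hH.eigenvectorUnitary : Matrix C C ℂ)
  set Λ := hH.eigenvalues with hΛ
  have hV : star V * V = 1 := Unitary.star_mul_self_of_mem hH.eigenvectorUnitary.2
  have hV' : V * star V = 1 := mul_eq_one_comm.mp hV
  have hsp : ρ = V * diagonal (fun i => (Λ i : ℂ)) * star V := by
    conv_lhs => rw [hH.spectral_theorem, Unitary.conjStarAlgAut_apply]
    rfl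
  set W : Matrix C D ℂ := star V * U with hW
  have hWW : Wᴴ * W = 1 := by
    rw [hW, conjTranspose_mul, star_eq_conjTranspose, conjTranspose_conjTranspose, Matrix.mul_assoc,
      ← Matrix.mul_assoc V, ← star_eq_conjTranspose, hV', Matrix.one_mul, hU]
  have hWW' : W * Wᴴ = 1 := by
    rw [hW, conjTranspose_mul, star_eq_conjTranspose, conjTranspose_conjTranspose, Matrix.mul_assoc,
      ← Matrix.mul_assoc U, hU', Matrix.one_mul, ← star_eq_conjTranspose, hV]
  have hcol : ∀ k, ∑ j, Complex.normSq (W j k) = 1 := fun k => by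
    have := congrArg (fun M : Matrix D D ℂ => (M k k).re) hWW
    simpa [Matrix.mul_apply, conjTranspose_apply, Complex.re_sum, Complex.normSq_apply] using this
  have hrow : ∀ j, ∑ k, Complex.normSq (W j k) = 1 := fun j => by
    have := congrArg (fun M : Matrix C C ℂ => (M j j).re) hWW'
    simpa [Matrix.mul_apply, conjTranspose_apply, Complex.re_sum, Complex.normSq_apply] using this
  have hdiag : ∀ k, ((Uᴴ * ρ * U) k k).re = ∑ j, Complex.normSq (W j k) * Λ j := by
    intro k
    have : Uᴴ * ρ * U = Wᴴ * diagonal (fun i => (Λ i : ℂ)) * W := by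
      rw [hsp, hW, conjTranspose_mul, star_eq_conjTranspose, conjTranspose_conjTranspose]
      simp only [Matrix.mul_assoc]
    rw [this, Matrix.mul_apply, Complex.re_sum]
    refine Finset.sum_congr rfl fun j _ => ?_
    simp only [mul_diagonal, conjTranspose_apply, Complex.star_def]
    simp [Complex.normSq_apply]; ring
  calc ∑ i, Real.negMulLog (Λ i)
      = ∑ k, ∑ j, Complex.normSq (W j k) * Real.negMulLog (Λ j) := by
        rw [Finset.sum_comm]
        exact Finset.sum_congr rfl fun j _ => by rw [← Finset.sum_mul, hrow, one_mul]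
    _ ≤ _ := by
        refine Finset.sum_le_sum fun k _ => ?_
        rw [hdiag]
        have := Real.concaveOn_negMulLog.le_map_sum (t := Finset.univ)
          (w := fun j => Complex.normSq (W j k)) (p := Λ) (fun j _ => Complex.normSq_nonneg _)
          (hcol k) (fun j _ => Set.mem_Ici.mpr (hρ.eigenvalues_nonneg j))
        simpa [smul_eq_mul] using this

/-- The log-partition function of a centred bounded function. -/
theorem log_partition_le {β : Type*} [Fintype β] [Nonempty β] (l : β → ℝ) (hl : ∑ a, l a = 0)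
    {M s : ℝ} (hs : 0 ≤ s) (hlM : ∀ a, |l a| ≤ M) (hsM : s * M ≤ 1) :
    Real.log (∑ a, Real.exp (s * l a)) ≤ Real.log (Fintype.card β) + s ^ 2 * M ^ 2 := by
  have h1 : ∀ a, Real.exp (s * l a) ≤ 1 + s * l a + s ^ 2 * M ^ 2 := by
    intro a
    have hb : |s * l a| ≤ s * M := by
      rw [abs_mul, abs_of_nonneg hs]; exact mul_le_mul_of_nonneg_left (hlM a) hs
    have h2 := abs_le.mp (Real.abs_exp_sub_one_sub_id_le (hb.trans hsM))
    have h3 : (s * l a) ^ 2 ≤ (s * M) ^ 2 := by
      rw [← sq_abs]; exact pow_le_pow_left₀ (abs_nonneg _) hb 2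
    have : (s * M) ^ 2 = s ^ 2 * M ^ 2 := by ring
    linarith [h2.2]
  have hpos : 0 < ∑ a, Real.exp (s * l a) :=
    Finset.sum_pos (fun a _ => Real.exp_pos _) Finset.univ_nonempty
  have hc : (0 : ℝ) < Fintype.card β := by exact_mod_cast Fintype.card_pos
  have hle : ∑ a, Real.exp (s * l a) ≤ (Fintype.card β : ℝ) * Real.exp (s ^ 2 * M ^ 2) := by
    refine (Finset.sum_le_sum fun a _ => h1 a).trans ?_
    simp only [Finset.sum_add_distrib, Finset.sum_const, Finset.card_univ, nsmul_eq_mul, mul_one,
      ← Finset.mul_sum, hl, mul_zero, add_zero]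
    have := mul_le_mul_of_nonneg_left (Real.add_one_le_exp (s ^ 2 * M ^ 2)) hc.le
    linarith
  refine (Real.log_le_log hpos hle).trans (le_of_eq ?_)
  rw [Real.log_mul hc.ne' (Real.exp_pos _).ne', Real.log_exp]

variable {κ : Type} [Fintype κ] [DecidableEq κ] {β : κ → Type} [∀ i, Fintype (β i)]
  [∀ i, DecidableEq (β i)] {C : Type} [Fintype C] [DecidableEq C]

/-- An operator on one block, extended by the identity. -/
def lift (e : C ≃ ∀ i, β i) (i : κ) (K : Matrix (β i) (β i) ℂ) : Matrix C C ℂ :=
  fun a b => if ∀ j, j ≠ i → e a j = e b j then K (e a i) (e b i) else 0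

/-- The product of unitaries on the blocks. -/
def prodU (e : C ≃ ∀ i, β i) (u : ∀ i, Matrix (β i) (β i) ℂ) : Matrix C (∀ i, β i) ℂ :=
  fun a k => ∏ i, u i (e a i) (k i)

theorem prod_eq_single {i : κ} (f g : ∀ j, β j) (x : ℂ) :
    (∏ j, if j = i then x else (if f j = g j then 1 else 0)) =
      if ∀ j, j ≠ i → f j = g j then x else 0 := by
  split_ifs with h
  · rw [Finset.prod_eq_single i (fun j _ hj => by simp [hj, h j hj]) (by simp)]
    simp
  · simp only [not_forall] at h
    obtain ⟨j, hj, hne⟩ := h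
    exact Finset.prod_eq_zero (Finset.mem_univ j) (by simp [hj, hne])

theorem prodU_orth (e : C ≃ ∀ i, β i) {u : ∀ i, Matrix (β i) (β i) ℂ}
    (hu : ∀ i, star (u i) * u i = 1) :
    (prodU e u)ᴴ * prodU e u = 1 ∧ prodU e u * (prodU e u)ᴴ = 1 := by
  constructor
  · ext k l
    simp only [Matrix.mul_apply, conjTranspose_apply, prodU, Complex.star_def, map_prod,
      ← Finset.prod_mul_distrib]
    rw [Fintype.sum_equiv e _ (fun c => ∏ i, starRingEnd ℂ (u i (c i) (k i)) * u i (c i) (l i))
      (fun a => rfl), ← Fintype.prod_sum fun i (x : β i) =>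
        starRingEnd ℂ (u i x (k i)) * u i x (l i)]
    have : ∀ i, ∑ x, starRingEnd ℂ (u i x (k i)) * u i x (l i) = if k i = l i then 1 else 0 := by
      intro i
      have := congrFun (congrFun (hu i) (k i)) (l i)
      simpa [Matrix.mul_apply, star_apply, one_apply] using this
    simp only [this]
    by_cases h : k = l
    · subst h; simp [one_apply_eq]
    · obtain ⟨j, hj⟩ := Function.ne_iff.mp h
      rw [Finset.prod_eq_zero (Finset.mem_univ j) (by simp [hj]), one_apply_ne h]
  · ext a b
    simp only [Matrix.mul_apply, conjTranspose_apply, prodU, Complex.star_def, map_prod,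
      ← Finset.prod_mul_distrib]
    rw [← Fintype.prod_sum fun i (x : β i) => u i (e a i) x * starRingEnd ℂ (u i (e b i) x)]
    have : ∀ i, ∑ x, u i (e a i) x * starRingEnd ℂ (u i (e b i) x)
        = if e a i = e b i then 1 else 0 := by
      intro i
      have h1 : u i * star (u i) = 1 := mul_eq_one_comm.mp (hu i)
      have := congrFun (congrFun h1 (e a i)) (e b i)
      simpa [Matrix.mul_apply, star_apply, one_apply] using this
    simp only [this]
    by_cases h : a = b
    · subst h; simp [one_apply_eq]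
    · obtain ⟨j, hj⟩ := Function.ne_iff.mp (e.injective.ne h)
      rw [Finset.prod_eq_zero (Finset.mem_univ j) (by simp [hj]), one_apply_ne h]

theorem lift_eq (e : C ≃ ∀ i, β i) {u : ∀ i, Matrix (β i) (β i) ℂ}
    (hu : ∀ i, star (u i) * u i = 1) (i : κ) (l : β i → ℂ) :
    prodU e u * diagonal (fun k : ∀ j, β j => l (k i)) * (prodU e u)ᴴ
      = lift e i (u i * diagonal l * star (u i)) := by
  ext a b
  simp only [Matrix.mul_apply (M := prodU e u * _), mul_diagonal, conjTranspose_apply, prodU, lift,
    Complex.star_def, map_prod]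
  have hterm : ∀ k : ∀ j, β j,
      (∏ j, u j (e a j) (k j)) * l (k i) * ∏ j, starRingEnd ℂ (u j (e b j) (k j))
        = ∏ j, (u j (e a j) (k j) * starRingEnd ℂ (u j (e b j) (k j))
            * if j = i then l (k i) else 1) := by
    intro k
    rw [Finset.prod_mul_distrib, Finset.prod_mul_distrib, Finset.prod_ite_eq' Finset.univ i,
      if_pos (Finset.mem_univ i)]
    ring
  simp only [hterm]
  set g : ∀ j, β j → ℂ := fun j x => u j (e a j) x * starRingEnd ℂ (u j (e b j) x)
    * if h : j = i then l (h ▸ x) else 1 with hg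
  have hg' : ∀ (k : ∀ j, β j) j, (u j (e a j) (k j) * starRingEnd ℂ (u j (e b j) (k j))
      * if j = i then l (k i) else 1) = g j (k j) := by
    intro k j
    by_cases h : j = i
    · subst h; simp [hg]
    · simp [hg, h]
  simp only [hg']
  rw [← Fintype.prod_sum]
  have hs : ∀ j, ∑ x, g j x =
      if j = i then (u i * diagonal l * star (u i)) (e a i) (e b i)
      else (if e a j = e b j then 1 else 0) := by
    intro j
    by_cases h : j = i
    · subst h
      simp only [hg, dif_pos, if_true, Matrix.mul_apply (M := u j * _), mul_diagonal, star_apply,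
        Complex.star_def]
      exact Finset.sum_congr rfl fun x _ => by ring
    · have h1 : u j * star (u j) = 1 := mul_eq_one_comm.mp (hu j)
      have := congrFun (congrFun h1 (e a j)) (e b j)
      simp only [hg, dif_neg h, if_neg h, mul_one]
      simpa [Matrix.mul_apply, star_apply, one_apply] using this
  simp only [hs]
  exact prod_eq_single (e a) (e b) _

/-- Each block observable costs a fixed amount of entropy. -/
theorem entropy_deficit (e : C ≃ ∀ i, β i) [∀ i, Nonempty (β i)] {ρ : Matrix C C ℂ}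
    (hρ : ρ.PosSemidef) (hH : ρ.IsHermitian) (htr : ρ.trace = 1) (S : Finset κ)
    (K : ∀ i, Matrix (β i) (β i) ℂ) {M : ℝ} (hK : ∀ i ∈ S, (K i).IsHermitian ∧ (K i).trace = 0 ∧
      ∀ v : β i → ℂ, |(star v ⬝ᵥ (K i *ᵥ v)).re| ≤ M * ∑ x, Complex.normSq (v x))
    {η : ℝ} (hη : 0 ≤ η) (hM : 0 < M) (hηM : η ≤ 2 * M)
    (hexp : ∀ i ∈ S, η ≤ (lift e i (K i) * ρ).trace.re) :
    ∑ a, Real.negMulLog (hH.eigenvalues a)
      ≤ (∑ i, Real.log (Fintype.card (β i))) - (S.card : ℝ) * (η ^ 2 / (4 * M ^ 2)) := by
  classical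
  set K' : ∀ i, Matrix (β i) (β i) ℂ := fun i => if i ∈ S then K i else 0 with hK'
  have hKH : ∀ i, (K' i).IsHermitian := fun i => by
    simp only [hK']; split_ifs with h
    · exact (hK i h).1
    · exact isHermitian_zero
  set u : ∀ i, Matrix (β i) (β i) ℂ := fun i => ((hKH i).eigenvectorUnitary : Matrix _ _ ℂ)
  have hu : ∀ i, star (u i) * u i = 1 := fun i =>
    Unitary.star_mul_self_of_mem (hKH i).eigenvectorUnitary.2
  set l : ∀ i, β i → ℝ := fun i => (hKH i).eigenvalues with hl
  have hsp : ∀ i, K' i = u i * diagonal (fun a => (l i a : ℂ)) * star (u i) := fun i => by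
    conv_lhs => rw [(hKH i).spectral_theorem, Unitary.conjStarAlgAut_apply]
    rfl
  have hdiag : ∀ i, star (u i) * K' i * u i = diagonal fun a => (l i a : ℂ) := fun i => by
    rw [hsp i]
    simp only [Matrix.mul_assoc, hu i, Matrix.mul_one]
    rw [← Matrix.mul_assoc, hu i, Matrix.one_mul]
  have hlM : ∀ i ∈ S, (∑ a, l i a = 0) ∧ ∀ a, |l i a| ≤ M := by
    intro i hi
    obtain ⟨-, hK2, hK3⟩ := hK i hi
    have e' : K' i = K i := if_pos hi
    constructor
    · have h1 := congrArg trace (hdiag i)
      rw [Matrix.mul_assoc, trace_mul_comm, Matrix.mul_assoc, mul_eq_one_comm.mp (hu i),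
        Matrix.mul_one, e', hK2, trace_diagonal, ← Complex.ofReal_sum, eq_comm,
        Complex.ofReal_eq_zero] at h1
      exact h1
    · intro a
      have h1 := congrFun (congrFun (hdiag i) a) a
      rw [diagonal_apply_eq, e'] at h1
      have h2 : (star fun x => u i x a) ⬝ᵥ (K i *ᵥ fun x => u i x a) = (l i a : ℂ) := by
        rw [← h1, Matrix.mul_assoc, Matrix.mul_apply]; rfl
      have h3 : ∑ x, Complex.normSq (u i x a) = 1 := by
        have := congrArg (fun A : Matrix (β i) (β i) ℂ => (A a a).re) (hu i)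
        simpa [Matrix.mul_apply, star_apply, Complex.re_sum, Complex.normSq_apply] using this
      have := hK3 fun x => u i x a
      rwa [h2, h3, Complex.ofReal_re, mul_one] at this
  set U := prodU e u with hUdef
  obtain ⟨hU, hU'⟩ := prodU_orth e hu
  set π : (∀ i, β i) → ℝ := fun k => ((Uᴴ * ρ * U) k k).re with hπ
  have hπ0 : ∀ k, 0 ≤ π k := fun k => (Complex.le_def.mp (hρ.conjTranspose_mul_mul_same U).diag_nonneg).1
  have hπ1 : ∑ k, π k = 1 := by
    have : (Uᴴ * ρ * U).trace = 1 := by
      rw [trace_mul_comm, ← Matrix.mul_assoc, hU', Matrix.one_mul, htr]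
    simp only [hπ, ← Complex.re_sum]
    rw [show ∑ k, (Uᴴ * ρ * U) k k = (Uᴴ * ρ * U).trace from rfl, this]; rfl
  have hπl : ∀ i ∈ S, η ≤ ∑ k, l i (k i) * π k := by
    intro i hi
    refine (hexp i hi).trans (le_of_eq ?_)
    have e' : K' i = K i := if_pos hi
    rw [← e', hsp i, ← lift_eq e hu i (fun a => (l i a : ℂ)), Matrix.mul_assoc, Matrix.mul_assoc,
      trace_mul_comm, Matrix.mul_assoc, ← hUdef]
    simp [Matrix.trace, Matrix.diag, diagonal_mul, Complex.re_sum, hπ]
  set s : ℝ := η / (2 * M ^ 2) with hs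
  have hs0 : 0 ≤ s := by positivity
  have hsM : s * M ≤ 1 := by
    rw [hs, div_mul_eq_mul_div, div_le_one (by positivity)]; nlinarith
  set Z : κ → ℝ := fun i => if i ∈ S then ∑ a, Real.exp (s * l i a) else Fintype.card (β i)
  set w : ∀ i, β i → ℝ := fun i a => if i ∈ S then Real.exp (s * l i a) / Z i else 1 / Z i with hw
  have hZ : ∀ i, 0 < Z i := fun i => by
    simp only [Z]; split_ifs
    · exact Finset.sum_pos (fun a _ => Real.exp_pos _) Finset.univ_nonempty
    · exact_mod_cast Fintype.card_pos
  have hwpos : ∀ i a, 0 < w i a := fun i a => by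
    simp only [hw]; split_ifs <;> exact div_pos (by positivity) (hZ i)
  have hw1 : ∀ i, ∑ a, w i a = 1 := fun i => by
    have := (hZ i).ne'
    by_cases h : i ∈ S
    · simp only [hw, h, if_true, ← Finset.sum_div, Z] at this ⊢
      exact div_self this
    · simp only [hw, h, if_false, Z, Finset.sum_const, Finset.card_univ, nsmul_eq_mul] at this ⊢
      field_simp
  set Q : (∀ i, β i) → ℝ := fun k => ∏ i, w i (k i) with hQ
  have hQ1 : ∑ k, Q k = 1 := by
    simp only [hQ]; rw [← Fintype.prod_sum]; simp [hw1]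
  have hQpos : ∀ k, 0 < Q k := fun k => Finset.prod_pos fun i _ => hwpos i (k i)
  have hgibbs : ∑ k, Real.negMulLog (π k) ≤ -∑ k, π k * Real.log (Q k) := by
    have : ∀ k, Real.negMulLog (π k) + π k * Real.log (Q k) ≤ Q k - π k := by
      intro k
      rcases (hπ0 k).lt_or_eq with h | h
      · have := Real.log_le_sub_one_of_pos (div_pos (hQpos k) h)
        rw [Real.log_div (hQpos k).ne' h.ne'] at this
        have h2 := mul_le_mul_of_nonneg_left this h.le
        have h3 : π k * (Q k / π k - 1) = Q k - π k := by field_simp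
        rw [Real.negMulLog]; linarith
      · rw [← h, Real.negMulLog_zero]; linarith [hQpos k]
    have h := Finset.sum_le_sum fun k (_ : k ∈ Finset.univ) => this k
    rw [Finset.sum_add_distrib, Finset.sum_sub_distrib, hQ1, hπ1] at h
    linarith
  refine ((entropy_le_diag hρ hH hU hU').trans hgibbs).trans ?_
  have hlog : ∀ k, Real.log (Q k) = (∑ i ∈ S, s * l i (k i)) - ∑ i, Real.log (Z i) := by
    intro k
    simp only [hQ]
    rw [Real.log_prod fun i _ => (hwpos i (k i)).ne', eq_sub_iff_add_eq, ← Finset.sum_add_distrib,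
      ← Finset.sum_filter_add_sum_filter_not Finset.univ (· ∈ S),
      Finset.filter_univ_mem, Finset.sum_eq_zero (s := Finset.univ.filter (· ∉ S)), add_zero]
    · refine Finset.sum_congr rfl fun i hi => ?_
      simp only [hw, hi, if_true]
      rw [Real.log_div (Real.exp_pos _).ne' (hZ i).ne', Real.log_exp]; ring
    · intro i hi
      simp only [hw, (Finset.mem_filter.mp hi).2, if_false, one_div, Real.log_inv]
      ring
  have hsum : ∑ k, π k * Real.log (Q k)
      = s * (∑ i ∈ S, ∑ k, l i (k i) * π k) - ∑ i, Real.log (Z i) := by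
    simp only [hlog, mul_sub, Finset.sum_sub_distrib]
    rw [← Finset.sum_mul, hπ1, one_mul]
    congr 1
    simp only [Finset.mul_sum]
    rw [Finset.sum_comm]
    exact Finset.sum_congr rfl fun i _ => Finset.sum_congr rfl fun k _ => by ring
  have hZle : ∑ i, Real.log (Z i)
      ≤ ∑ i, (Real.log (Fintype.card (β i)) + if i ∈ S then s ^ 2 * M ^ 2 else 0) := by
    refine Finset.sum_le_sum fun i _ => ?_
    simp only [Z]; split_ifs with h
    · exact log_partition_le (l i) (hlM i h).1 hs0 (hlM i h).2 hsM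
    · rw [add_zero]
  rw [Finset.sum_add_distrib, Finset.sum_ite_mem, Finset.univ_inter, Finset.sum_const,
    nsmul_eq_mul] at hZle
  have hge := mul_le_mul_of_nonneg_left (Finset.card_nsmul_le_sum S _ η hπl) hs0
  rw [nsmul_eq_mul] at hge
  have e2 : (S.card : ℝ) * (η ^ 2 / (4 * M ^ 2))
      = s * (S.card * η) - S.card * (s ^ 2 * M ^ 2) := by
    have hM' := hM.ne'
    have : s * (S.card * η) - S.card * (s ^ 2 * M ^ 2)
        = (S.card : ℝ) * (s * η - s ^ 2 * M ^ 2) := by ring
    rw [this, hs]
    congr 1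
    field_simp
    ring
  rw [hsum, e2]
  linarith

end

end Vale.Agent.P356
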