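import Vale.Agent.P356.Defs

/-! # Balls deep inside a region -/

namespace Vale.Agent.P356

variable {L : ℕ}

/-- The ball of the box. -/
def ball (x : Site L) (R : ℕ) : Finset (Site L) := Finset.univ.filter fun y => dist1 x y ≤ R

theorem mem_ball {x y : Site L} {R : ℕ} : y ∈ ball x R ↔ dist1 x y ≤ R := by simp [ball]

theorem dist1_comm (x y : Site L) : dist1 x y = dist1 y x := by
  simp only [dist1]; omega

theorem dist1_self (x : Site L) : dist1 x x = 0 := by simp [dist1]

theorem dist1_triangle (x y z : Site L) : dist1 x z ≤ dist1 x y + dist1 y z := by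
  simp only [dist1]
  omega

theorem ball_card (x : Site L) (R : ℕ) : (ball x R).card ≤ (2 * R + 1) ^ 2 := by
  have : (2 * R + 1) ^ 2 = (Finset.range (2 * R + 1) ×ˢ Finset.range (2 * R + 1)).card := by
    simp [sq]
  rw [this]
  refine Finset.card_le_card_of_injOn
    (fun y => ((y.1 : ℕ) + R - x.1, (y.2 : ℕ) + R - x.2)) ?_ ?_
  · intro y hy
    simp only [Finset.mem_coe, mem_ball, dist1] at hy
    simp only [Finset.mem_coe, Finset.mem_product, Finset.mem_range]
    omega
  · intro y hy z hz h
    simp only [Finset.mem_coe, mem_ball, dist1] at hy hz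
    simp only [Prod.mk.injEq] at h
    refine Prod.ext (Fin.ext ?_) (Fin.ext ?_) <;> omega

/-- One step from `x` towards a different point. -/
theorem exists_step {x y : Site L} (h : x ≠ y) :
    ∃ z, dist1 x z = 1 ∧ dist1 z y + 1 = dist1 x y := by
  have hx1 := x.1.2; have hy1 := y.1.2; have hx2 := x.2.2; have hy2 := y.2.2
  rcases lt_trichotomy (x.1 : ℕ) y.1 with h1 | h1 | h1
  · exact ⟨(⟨x.1 + 1, by omega⟩, x.2), by simp only [dist1]; omega, by simp only [dist1]; omega⟩
  · rcases lt_trichotomy (x.2 : ℕ) y.2 with h2 | h2 | h2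
    · exact ⟨(x.1, ⟨x.2 + 1, by omega⟩), by simp only [dist1]; omega,
        by simp only [dist1]; omega⟩
    · exact absurd (Prod.ext (Fin.ext h1) (Fin.ext h2)) h
    · exact ⟨(x.1, ⟨x.2 - 1, by omega⟩), by simp only [dist1]; omega,
        by simp only [dist1]; omega⟩
  · exact ⟨(⟨x.1 - 1, by omega⟩, x.2), by simp only [dist1]; omega,
      by simp only [dist1]; omega⟩

theorem exists_bdry_near (A : Finset (Site L)) : ∀ (n : ℕ) (x y : Site L), x ∈ A → y ∉ A →
    dist1 x y ≤ n → ∃ p ∈ bdry A, dist1 x p.1 ≤ n := by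
  intro n
  induction n with
  | zero =>
    intro x y hx hy hd
    refine absurd hx ?_
    have : x = y := by
      simp only [dist1] at hd
      exact Prod.ext (Fin.ext (by omega)) (Fin.ext (by omega))
    rw [this]; exact hy
  | succ n ih =>
    intro x y hx hy hd
    obtain ⟨z, h1, h2⟩ := exists_step (fun e : x = y => hy (e ▸ hx))
    by_cases hz : z ∈ A
    · obtain ⟨p, hp, hp'⟩ := ih z y hz hy (by omega)
      exact ⟨p, hp, by have := dist1_triangle x z p.1; omega⟩
    · exact ⟨(x, z), by simp [bdry, hx, hz, h1], by simp [dist1_self]⟩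

/-- Many disjoint balls lie inside a region with small boundary. -/
theorem exists_packing (A : Finset (Site L)) (R : ℕ) :
    ∃ T : Finset (Site L), (∀ x ∈ T, ball x R ⊆ A) ∧
      (∀ x ∈ T, ∀ y ∈ T, x ≠ y → Disjoint (ball x R) (ball y R)) ∧
      A.card ≤ (4 * R + 1) ^ 2 * T.card + (2 * R + 1) ^ 2 * (bdry A).card := by
  classical
  set I := A.filter fun x => ball x R ⊆ A with hI
  set good := I.powerset.filter fun T => ∀ x ∈ T, ∀ y ∈ T, x ≠ y → 2 * R < dist1 x y
  obtain ⟨T, hT, hmax⟩ := good.exists_max_image Finset.card ⟨∅, by simp [good]⟩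
  simp only [good, Finset.mem_filter, Finset.mem_powerset] at hT hmax
  refine ⟨T, fun x hx => (Finset.mem_filter.mp (hT.1 hx)).2, fun x hx y hy hne => ?_, ?_⟩
  · rw [Finset.disjoint_left]
    intro z h1 h2
    rw [mem_ball] at h1 h2
    have := dist1_triangle x z y
    have := hT.2 x hx y hy hne
    rw [dist1_comm y z] at h2
    omega
  · have hcov : I ⊆ T.biUnion fun t => ball t (2 * R) := by
      intro x hx
      by_contra hno
      simp only [Finset.mem_biUnion, mem_ball, not_exists, not_and, not_le] at hno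
      have hxT : x ∉ T := fun h => absurd (hno x h) (by simp [dist1_self])
      have := hmax (insert x T) ⟨Finset.insert_subset hx hT.1, fun a ha b hb hab => ?_⟩
      · rw [Finset.card_insert_of_notMem hxT] at this; omega
      · rcases Finset.mem_insert.mp ha with ha' | ha' <;> rcases Finset.mem_insert.mp hb with hb' | hb'
        · exact absurd (ha'.trans hb'.symm) hab
        · rw [ha', dist1_comm]; exact hno b hb'
        · rw [hb']; exact hno a ha'
        · exact hT.2 a ha' b hb' hab
    have h1 : I.card ≤ (4 * R + 1) ^ 2 * T.card := by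
      refine (Finset.card_le_card hcov).trans (Finset.card_biUnion_le.trans ?_)
      refine (Finset.sum_le_sum fun t _ => ball_card t (2 * R)).trans ?_
      rw [Finset.sum_const, smul_eq_mul, show 2 * (2 * R) + 1 = 4 * R + 1 by ring, mul_comm]
    have hout : A \ I ⊆ (bdry A).biUnion fun p => ball p.1 R := by
      intro x hx
      simp only [hI, Finset.mem_sdiff, Finset.mem_filter, not_and] at hx
      obtain ⟨y, hy, hyA⟩ := Finset.not_subset.mp (hx.2 hx.1)
      obtain ⟨p, hp, hp'⟩ := exists_bdry_near A R x y hx.1 hyA (mem_ball.mp hy)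
      exact Finset.mem_biUnion.mpr ⟨p, hp, mem_ball.mpr (by rwa [dist1_comm])⟩
    have h2 : (A \ I).card ≤ (2 * R + 1) ^ 2 * (bdry A).card := by
      refine (Finset.card_le_card hout).trans (Finset.card_biUnion_le.trans ?_)
      refine (Finset.sum_le_sum fun p _ => ball_card p.1 R).trans ?_
      rw [Finset.sum_const, smul_eq_mul, mul_comm]
    have h3 : A.card = (A \ I).card + I.card :=
      (Finset.card_sdiff_add_card_eq_card (Finset.filter_subset _ _)).symm
    omega

end Vale.Agent.P356
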