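import Vale.Agent.P356.Entropy

/-! # The entropy stays a volume fraction below its maximum, up to a boundary term -/

namespace Vale.Agent.P356

open Matrix
open scoped ComplexOrder

noncomputable section

variable {L q : ℕ}

theorem glue_mem (A : Finset (Site L)) (a : {x // x ∈ A} → Fin q) (r : {x // x ∉ A} → Fin q)
    {x : Site L} (hx : x ∈ A) : glue A a r x = a ⟨x, hx⟩ := dif_pos hx

theorem glue_not_mem (A : Finset (Site L)) (a : {x // x ∈ A} → Fin q) (r : {x // x ∉ A} → Fin q)
    {x : Site L} (hx : x ∉ A) : glue A a r x = r ⟨x, hx⟩ := dif_neg hx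

/-- A sum over configurations, split into a region and the other sites. -/
theorem sum_glue {M : Type*} [AddCommMonoid M] (A : Finset (Site L)) (F : Cfg L q → M) :
    ∑ σ, F σ = ∑ a, ∑ r, F (glue A a r) := by
  rw [← Fintype.sum_prod_type']
  exact (Fintype.sum_equiv (Equiv.piEquivPiSubtypeProd (· ∈ A) fun _ => Fin q).symm
    (fun p => F (glue A p.1 p.2)) F fun _ => rfl).symm

/-- An operator on `A` between two configurations. -/
theorem actsOn_glue {A : Finset (Site L)} {G : Matrix (Cfg L q) (Cfg L q) ℂ} (hG : ActsOn A G)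
    (a b : {x // x ∈ A} → Fin q) (r r' r₀ : {x // x ∉ A} → Fin q) :
    G (glue A a r) (glue A b r') = if r = r' then G (glue A a r₀) (glue A b r₀) else 0 := by
  split_ifs with h
  · subst h
    refine hG.2 _ _ _ _ (fun x hx => ?_) (fun x hx => ?_) (fun x hx => ?_)
    · simp [glue_mem A _ _ hx]
    · simp [glue_not_mem A _ _ hx]
    · simp [glue_not_mem A _ _ hx]
  · obtain ⟨⟨x, hx⟩, hne⟩ := Function.ne_iff.mp h
    exact hG.1 _ _ ⟨x, hx, by simpa [glue_not_mem A _ _ hx] using hne⟩

/-- The expectation of an operator on `A` in terms of the reduced density matrix. -/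
theorem expect_eq_trace {A : Finset (Site L)} {G : Matrix (Cfg L q) (Cfg L q) ℂ} (hG : ActsOn A G)
    (Ω : Cfg L q → ℂ) (r₀ : {x // x ∉ A} → Fin q) :
    star Ω ⬝ᵥ (G *ᵥ Ω)
      = (G.submatrix (fun a => glue A a r₀) (fun a => glue A a r₀) * reduced A Ω).trace := by
  simp only [Matrix.trace, Matrix.diag, reduced, Matrix.mul_apply, Matrix.submatrix_apply,
    conjTranspose_apply, amp, Finset.mul_sum, dotProduct, Matrix.mulVec, Pi.star_apply]
  rw [sum_glue A]
  refine Finset.sum_congr rfl fun a _ => ?_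
  simp only [sum_glue A (fun τ => star (Ω _) * (G _ τ * Ω τ))]
  rw [Finset.sum_comm]
  refine Finset.sum_congr rfl fun b _ => Finset.sum_congr rfl fun r _ => ?_
  rw [Finset.sum_eq_single r]
  · rw [actsOn_glue hG a b r r r₀, if_pos rfl]; ring
  · intro r' _ hne
    rw [actsOn_glue hG a b r r' r₀, if_neg (Ne.symm hne)]; simp
  · simp

theorem reduced_trace (A : Finset (Site L)) (Ω : Cfg L q → ℂ) :
    (reduced A Ω).trace = star Ω ⬝ᵥ Ω := by
  simp only [Matrix.trace, Matrix.diag, reduced, Matrix.mul_apply, conjTranspose_apply, amp,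
    dotProduct, Pi.star_apply]
  rw [sum_glue A]
  exact Finset.sum_congr rfl fun a _ => Finset.sum_congr rfl fun r _ => mul_comm _ _

/-- A bound on a quadratic form passes to principal submatrices. -/
theorem form_submatrix_le {ι ι' : Type*} [Fintype ι] [Fintype ι'] (φ : ι' → ι)
    (hφ : Function.Injective φ) (G : Matrix ι ι ℂ) {M : ℝ}
    (hG : ∀ v : ι → ℂ, |(star v ⬝ᵥ (G *ᵥ v)).re| ≤ M * ∑ i, Complex.normSq (v i)) (v : ι' → ℂ) :
    |(star v ⬝ᵥ (G.submatrix φ φ *ᵥ v)).re| ≤ M * ∑ i, Complex.normSq (v i) := by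
  classical
  set V : ι → ℂ := Function.extend φ v 0
  have hV : ∀ u, V (φ u) = v u := fun u => hφ.extend_apply _ _ u
  have h0 : ∀ i, i ∉ Set.range φ → V i = 0 := fun i hi =>
    Function.extend_apply' _ _ i fun ⟨u, hu⟩ => hi ⟨u, hu⟩
  have h1 : ∑ u, Complex.normSq (v u) = ∑ i, Complex.normSq (V i) :=
    Fintype.sum_of_injective φ hφ _ _ (fun i hi => by simp [h0 i hi]) (fun u => by rw [hV])
  have h2 : star v ⬝ᵥ (G.submatrix φ φ *ᵥ v) = star V ⬝ᵥ (G *ᵥ V) := by
    refine Fintype.sum_of_injective φ hφ _ _ (fun i hi => by simp [h0 i hi]) fun u => ?_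
    simp only [Pi.star_apply, hV]
    congr 1
    exact Fintype.sum_of_injective φ hφ _ _ (fun i hi => by simp [h0 i hi]) fun w => by simp [hV]
  rw [h1, h2]
  exact hG V

theorem trace_lift {κ : Type} [Fintype κ] [DecidableEq κ] {β : κ → Type} [∀ i, Fintype (β i)]
    [∀ i, DecidableEq (β i)] {C : Type} [Fintype C] (e : C ≃ ∀ i, β i) (i : κ)
    (K : Matrix (β i) (β i) ℂ) :
    (lift e i K).trace = Fintype.card (∀ j : {j // j ≠ i}, β j) • K.trace := by
  simp only [Matrix.trace, Matrix.diag, lift, implies_true, if_true]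
  rw [Fintype.sum_equiv (e.trans (Equiv.piSplitAt i β)) (fun a => K (e a i) (e a i))
      (fun p => K p.1 p.1) (fun a => rfl), Fintype.sum_prod_type, Finset.smul_sum]
  exact Finset.sum_congr rfl fun u _ => by simp

/-- The entropy drops by a fixed amount for each ball inside the region. -/
theorem entropy_le_packing {R : ℕ} {J Δ : ℝ} (hq : 2 ≤ q) (hJ : 0 < J) (hΔ : 0 < Δ)
    {h : Finset (Site L) → Matrix (Cfg L q) (Cfg L q) ℂ} (hh : IsAdmissible R J h) {E₀ : ℝ}
    {Ω : Cfg L q → ℂ} (hΩ : IsGappedGround (∑ X, h X) E₀ Δ Ω) (A T : Finset (Site L))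
    (hsub : ∀ x ∈ T, ball x R ⊆ A)
    (hdisj : ∀ x ∈ T, ∀ y ∈ T, x ≠ y → Disjoint (ball x R) (ball y R)) :
    entropy A Ω ≤ Real.log q * A.card
      - (T.card : ℝ) * ((min (1 / (q : ℝ)) (Δ / q)) ^ 2
          / (4 * (2 + 2 * J * 2 ^ ((2 * R + 1) ^ 2)) ^ 2)) := by
  classical
  haveI : NeZero q := ⟨by omega⟩
  choose G hGH hGact hGtr hGM hGη using fun x => exists_witness hq hJ hΔ hh hΩ x
  set η : ℝ := min (1 / (q : ℝ)) (Δ / q) with hη
  set M : ℝ := 2 + 2 * J * 2 ^ ((2 * R + 1) ^ 2) with hM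
  set r₀ : {x // x ∉ A} → Fin q := fun _ => 0
  -- the blocks: the balls, and what is left of `A`
  let f : {x // x ∈ A} → Option {t // t ∈ T} := fun a =>
    if h : ∃ t : {t // t ∈ T}, a.1 ∈ ball t.1 R then some h.choose else none
  have hf : ∀ (a : {x // x ∈ A}) (t : {t // t ∈ T}), f a = some t ↔ a.1 ∈ ball t.1 R := by
    intro a t
    constructor
    · intro hat
      simp only [f] at hat
      split_ifs at hat with h
      rw [← Option.some.inj hat]; exact h.choose_spec
    · intro hat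
      have h : ∃ t : {t // t ∈ T}, a.1 ∈ ball t.1 R := ⟨t, hat⟩
      simp only [f]
      rw [dif_pos h]
      refine congrArg some (Subtype.ext ?_)
      by_contra hne
      exact Finset.disjoint_left.mp (hdisj _ h.choose.2 _ t.2 hne) h.choose_spec hat
  let β : Option {t // t ∈ T} → Type := fun i => {a : {x // x ∈ A} // f a = i} → Fin q
  let e : ({x // x ∈ A} → Fin q) ≃ ∀ i, β i :=
    { toFun := fun a i p => a p.1
      invFun := fun k x => k (f x) ⟨x, rfl⟩
      left_inv := fun a => rfl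
      right_inv := fun k => funext fun i => funext fun ⟨x, hx⟩ => by subst hx; rfl }
  let mk : ∀ i, β i → ({x // x ∈ A} → Fin q) := fun i u =>
    e.symm (Function.update (e fun _ => 0) i u)
  have hmk : ∀ i (u : β i) (p : {a // f a = i}), mk i u p.1 = u p := by
    intro i u p
    show e (mk i u) i p = u p
    simp [mk]
  have hmk' : ∀ i (u : β i) (x : {x // x ∈ A}), f x ≠ i → mk i u x = 0 := by
    intro i u x hx
    show e (mk i u) (f x) ⟨x, rfl⟩ = 0
    simp only [mk, Equiv.apply_symm_apply, Function.update_of_ne hx]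
    rfl
  set φ : ∀ i, β i → Cfg L q := fun i u => glue A (mk i u) r₀ with hφdef
  have hφ : ∀ i, Function.Injective (φ i) := by
    intro i u v huv
    funext p
    have := congrFun huv p.1.1
    simp only [hφdef, glue_mem A _ _ p.1.2] at this
    rwa [Subtype.coe_eta, hmk, hmk] at this
  let K : ∀ i, Matrix (β i) (β i) ℂ := fun i =>
    match i with
    | none => 0
    | some t => (G t.1).submatrix (φ (some t)) (φ (some t))
  have hlift : ∀ t : {t // t ∈ T}, lift e (some t) (K (some t))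
      = (G t.1).submatrix (fun a => glue A a r₀) (fun a => glue A a r₀) := by
    intro t
    ext a b
    simp only [lift, K, Matrix.submatrix_apply, hφdef]
    split_ifs with hab
    · refine ((hGact t.1).2 _ _ _ _ (fun x hx => ?_) (fun x hx => ?_) (fun x hx => ?_))
      · have hxA : x ∈ A := hsub _ t.2 hx
        have hfx := (hf ⟨x, hxA⟩ t).mpr hx
        simp only [glue_mem A _ _ hxA]
        exact ⟨hmk _ (e a (some t)) ⟨⟨x, hxA⟩, hfx⟩, hmk _ (e b (some t)) ⟨⟨x, hxA⟩, hfx⟩⟩
      · by_cases hxA : x ∈ A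
        · simp only [glue_mem A _ _ hxA]
          have hfx : f ⟨x, hxA⟩ ≠ some t := fun h => hx ((hf ⟨x, hxA⟩ t).mp h)
          exact congrFun (hab _ hfx) ⟨⟨x, hxA⟩, rfl⟩
        · simp only [glue_not_mem A _ _ hxA]
      · by_cases hxA : x ∈ A
        · simp only [glue_mem A _ _ hxA]
          have hfx : f ⟨x, hxA⟩ ≠ some t := fun h => hx ((hf ⟨x, hxA⟩ t).mp h)
          rw [hmk' _ _ _ hfx, hmk' _ _ _ hfx]
        · simp only [glue_not_mem A _ _ hxA]
    · simp only [not_forall] at hab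
      obtain ⟨j, hj, hne⟩ := hab
      obtain ⟨⟨x, hxj⟩, hne'⟩ := Function.ne_iff.mp hne
      refine ((hGact t.1).1 _ _ ⟨x.1, fun hx => hj ?_, ?_⟩).symm
      · rw [← hxj, (hf x t).mpr hx]
      · exact fun h => hne'
          ((glue_mem A a r₀ x.2).symm.trans (h.trans (glue_mem A b r₀ x.2)))
  set S : Finset (Option {t // t ∈ T}) := Finset.univ.image some with hS
  have hρ : (reduced A Ω).PosSemidef := posSemidef_self_mul_conjTranspose _
  have hmain := entropy_deficit e hρ (isHermitian_mul_conjTranspose_self (amp A Ω))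
    (by rw [reduced_trace, hΩ.1]) S K (M := M) (η := η) (fun i hi => ?_) (by positivity)
    (by positivity) ?_ (fun i hi => ?_)
  rotate_left
  · obtain ⟨t, -, rfl⟩ := Finset.mem_image.mp hi
    refine ⟨(hGH t.1).submatrix _, ?_, form_submatrix_le _ (hφ _) _ (hGM t.1)⟩
    have h1 := congrArg Matrix.trace (hlift t)
    rw [trace_lift] at h1
    have h2 : (G t.1).trace = (Fintype.card ({x // x ∉ A} → Fin q)) •
        ((G t.1).submatrix (fun a => glue A a r₀) (fun a => glue A a r₀)).trace := by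
      simp only [Matrix.trace, Matrix.diag, Matrix.submatrix_apply, Finset.smul_sum]
      rw [sum_glue A]
      refine Finset.sum_congr rfl fun a _ => ?_
      refine (Finset.sum_congr rfl fun r _ => ?_).trans (Finset.sum_const _)
      rw [actsOn_glue ((hGact t.1).mono (hsub _ t.2)) a a r r r₀, if_pos rfl]
    rw [hGtr, ← h1, ← mul_nsmul', eq_comm, smul_eq_zero] at h2
    haveI : ∀ i, Nonempty (β i) := fun i => ⟨fun _ => 0⟩
    exact h2.resolve_left (Nat.mul_ne_zero Fintype.card_ne_zero Fintype.card_ne_zero)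
  · have : η ≤ 1 / 2 := (min_le_left _ _).trans (by
      gcongr; exact_mod_cast hq)
    have : 0 ≤ 2 * J * 2 ^ ((2 * R + 1) ^ 2) := by positivity
    linarith
  · obtain ⟨t, -, rfl⟩ := Finset.mem_image.mp hi
    rw [hlift, ← expect_eq_trace ((hGact t.1).mono (hsub _ t.2)) Ω r₀]
    exact hGη t.1
  have hcard : S.card = T.card := by
    rw [hS, Finset.card_image_of_injective _ (Option.some_injective _)]; simp
  have hlog : ∑ i, Real.log (Fintype.card (β i)) = Real.log q * A.card := by
    have h1 : ∀ i, Real.log (Fintype.card (β i))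
        = Real.log q * Fintype.card {a : {x // x ∈ A} // f a = i} := fun i => by
      simp [β, Real.log_pow, mul_comm]
    simp only [h1, ← Finset.mul_sum, ← Nat.cast_sum]
    rw [← Fintype.card_sigma, Fintype.card_congr (Equiv.sigmaFiberEquiv f), Fintype.card_coe]
  rw [hcard, hlog] at hmain
  exact hmain

/-- The entropy stays a fixed fraction of the volume below its maximum, up to a boundary term. -/
theorem no_saturation (q R : ℕ) (J Δ : ℝ) (hq : 2 ≤ q) (hJ : 0 < J) (hΔ : 0 < Δ) :
    ∃ c C : ℝ, 0 < c ∧ ∀ L : ℕ, ∀ h : Finset (Site L) → Matrix (Cfg L q) (Cfg L q) ℂ,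
      IsAdmissible R J h → ∀ (E₀ : ℝ) (Ω : Cfg L q → ℂ), IsGappedGround (∑ X, h X) E₀ Δ Ω →
        ∀ A : Finset (Site L),
          entropy A Ω ≤ (Real.log q - c) * A.card + C * (bdry A).card := by
  set g : ℝ := (min (1 / (q : ℝ)) (Δ / q)) ^ 2 / (4 * (2 + 2 * J * 2 ^ ((2 * R + 1) ^ 2)) ^ 2)
    with hg
  have hg0 : 0 < g := by
    have : (0 : ℝ) < q := by exact_mod_cast (by omega : 0 < q)
    have : 0 < min (1 / (q : ℝ)) (Δ / q) := lt_min (by positivity) (by positivity)
    positivity
  refine ⟨g / (4 * R + 1) ^ 2, g / (4 * R + 1) ^ 2 * (2 * R + 1) ^ 2, by positivity,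
    fun L h hh E₀ Ω hΩ A => ?_⟩
  obtain ⟨T, hsub, hdisj, hcount⟩ := exists_packing A R
  have h1 := entropy_le_packing hq hJ hΔ hh hΩ A T hsub hdisj
  have h2 : (A.card : ℝ) ≤ (4 * R + 1) ^ 2 * T.card + (2 * R + 1) ^ 2 * (bdry A).card := by
    exact_mod_cast hcount
  have h3 := mul_le_mul_of_nonneg_left h2 (by positivity : (0 : ℝ) ≤ g / (4 * R + 1) ^ 2)
  rw [mul_add, ← mul_assoc, div_mul_cancel₀ g (by positivity), ← mul_assoc] at h3
  rw [← hg] at h1
  linarith

end

end Vale.Agent.P356
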