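import Vale.Agent.P356.Geometry

/-! # The gap gives a local witness against the maximally mixed state -/

namespace Vale.Agent.P356

open Matrix
open scoped ComplexOrder

noncomputable section

variable {L q : ℕ}

theorem ActsOn.mono {X Y : Finset (Site L)} {G : Matrix (Cfg L q) (Cfg L q) ℂ} (hG : ActsOn X G)
    (hXY : X ⊆ Y) : ActsOn Y G := by
  refine ⟨fun σ τ ⟨x, hx, hne⟩ => hG.1 σ τ ⟨x, fun h => hx (hXY h), hne⟩, ?_⟩
  intro σ τ σ' τ' hin hout hout'
  by_cases h : ∀ x, x ∉ X → σ x = τ x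
  · refine hG.2 σ τ σ' τ' (fun x hx => hin x (hXY hx)) h fun x hx => ?_
    by_cases hy : x ∈ Y
    · rw [(hin x hy).1, (hin x hy).2, h x hx]
    · exact hout' x hy
  · simp only [not_forall] at h
    obtain ⟨x, hx, hne⟩ := h
    rw [hG.1 σ τ ⟨x, hx, hne⟩, hG.1 σ' τ' ⟨x, hx, ?_⟩]
    by_cases hy : x ∈ Y
    · rwa [(hin x hy).1, (hin x hy).2]
    · exact absurd (hout x hy) hne

theorem normSq_dot {ι : Type*} [Fintype ι] (v : ι → ℂ) :
    (star v ⬝ᵥ v).re = ∑ i, Complex.normSq (v i) := by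
  simp [dotProduct, Complex.re_sum, Complex.normSq_apply]

theorem NormLE.form_le {ι : Type*} [Fintype ι] {G : Matrix ι ι ℂ} {J : ℝ} (hJ : 0 < J)
    (hG : NormLE G J) (v : ι → ℂ) :
    |(star v ⬝ᵥ (G *ᵥ v)).re| ≤ J * ∑ i, Complex.normSq (v i) := by
  simp only [dotProduct, Complex.re_sum]
  refine (Finset.abs_sum_le_sum_abs _ _).trans ?_
  refine le_trans (Finset.sum_le_sum (g := fun i =>
    J / 2 * Complex.normSq (v i) + 1 / (2 * J) * Complex.normSq ((G *ᵥ v) i)) fun i _ => ?_) ?_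
  · refine (Complex.abs_re_le_norm _).trans ?_
    rw [norm_mul, Pi.star_apply, norm_star, Complex.normSq_eq_norm_sq, Complex.normSq_eq_norm_sq,
      show J / 2 * ‖v i‖ ^ 2 + 1 / (2 * J) * ‖(G *ᵥ v) i‖ ^ 2
        = ((J * ‖v i‖) ^ 2 + ‖(G *ᵥ v) i‖ ^ 2) / (2 * J) by field_simp,
      le_div_iff₀ (by positivity)]
    nlinarith [sq_nonneg (J * ‖v i‖ - ‖(G *ᵥ v) i‖)]
  · rw [Finset.sum_add_distrib, ← Finset.mul_sum, ← Finset.mul_sum]
    have h1 := mul_le_mul_of_nonneg_left (hG v) (by positivity : (0 : ℝ) ≤ 1 / (2 * J))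
    have h2 : 1 / (2 * J) * (J ^ 2 * ∑ i, Complex.normSq (v i))
        = J / 2 * ∑ i, Complex.normSq (v i) := by field_simp
    linarith

/-- The sum over configurations of a function of one site. -/
theorem sum_site (x : Site L) (f : Fin q → ℝ) :
    ∑ σ : Cfg L q, f (σ x) = Fintype.card ({y // y ≠ x} → Fin q) * ∑ a, f a := by
  rw [Fintype.sum_equiv (Equiv.funSplitAt x (Fin q)) (fun σ => f (σ x)) (fun p => f p.1)
    (fun σ => by simp), Fintype.sum_prod_type, Finset.mul_sum]
  exact Finset.sum_congr rfl fun a _ => by simp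

/-- `1` at the first basis vector, `-1` at the others. -/
def sgn (a : Fin q) : ℝ := if (a : ℕ) = 0 then 1 else -1

theorem sgn_sq (a : Fin q) : sgn a * sgn a = 1 := by unfold sgn; split_ifs <;> norm_num

theorem sum_sgn (hq : 2 ≤ q) : ∑ a : Fin q, sgn a = 2 - q := by
  obtain ⟨m, rfl⟩ : ∃ m, q = m + 1 := ⟨q - 1, by omega⟩
  rw [Fin.sum_univ_succ]
  simp only [sgn, Fin.val_zero, if_true, Fin.val_succ, Nat.succ_ne_zero, if_false,
    Finset.sum_const, Finset.card_univ, Fintype.card_fin, nsmul_eq_mul]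
  push_cast; ring

/-- A traceless observable near `x` whose expectation is bounded below by the gap. -/
theorem exists_witness {R : ℕ} {J Δ : ℝ} (hq : 2 ≤ q) (hJ : 0 < J) (hΔ : 0 < Δ)
    {h : Finset (Site L) → Matrix (Cfg L q) (Cfg L q) ℂ} (hh : IsAdmissible R J h) {E₀ : ℝ}
    {Ω : Cfg L q → ℂ} (hΩ : IsGappedGround (∑ X, h X) E₀ Δ Ω) (x : Site L) :
    ∃ G : Matrix (Cfg L q) (Cfg L q) ℂ, G.IsHermitian ∧ ActsOn (ball x R) G ∧ G.trace = 0 ∧
      (∀ v : Cfg L q → ℂ, |(star v ⬝ᵥ (G *ᵥ v)).re|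
        ≤ (2 + 2 * J * 2 ^ ((2 * R + 1) ^ 2)) * ∑ σ, Complex.normSq (v σ)) ∧
      min (1 / (q : ℝ)) (Δ / q) ≤ (star Ω ⬝ᵥ (G *ᵥ Ω)).re := by
  classical
  obtain ⟨h1, h2, h3⟩ := hΩ
  have hq' : (2 : ℝ) ≤ q := by exact_mod_cast hq
  have hq0 : (0 : ℝ) < q := by linarith
  set o : Cfg L q → ℝ := fun σ => sgn (σ x) with ho
  have hn1 : ∑ σ, Complex.normSq (Ω σ) = 1 := by rw [← normSq_dot, h1]; simp
  set t : ℝ := (2 - q) / q with ht
  set e : ℝ := ∑ σ, o σ * Complex.normSq (Ω σ) with he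
  have hx : x ∈ ball x R := mem_ball.mpr (by simp [dist1])
  have hM : (2 : ℝ) ≤ 2 + 2 * J * 2 ^ ((2 * R + 1) ^ 2) := by
    linarith [(by positivity : (0 : ℝ) ≤ 2 * J * 2 ^ ((2 * R + 1) ^ 2))]
  by_cases hcase : 1 / (q : ℝ) ≤ |e - t|
  · set s : ℝ := if 0 ≤ e - t then 1 else -1 with hs
    set D : Cfg L q → ℝ := fun σ => s * (o σ - t) with hD
    have hD2 : ∀ σ, |D σ| ≤ 2 := fun σ => by
      have hs1 : |s| = 1 := by rw [hs]; split_ifs <;> simp
      have ho1 : |o σ| = 1 := by simp only [ho, sgn]; split_ifs <;> simp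
      have ht1 : |t| ≤ 1 := by
        rw [ht, abs_div, abs_of_pos hq0, div_le_one hq0, abs_le]; constructor <;> linarith
      rw [hD, abs_mul, hs1, one_mul]
      linarith [abs_sub (o σ) t]
    have hform : ∀ v : Cfg L q → ℂ,
        (star v ⬝ᵥ (diagonal (fun σ => (D σ : ℂ)) *ᵥ v)).re
          = ∑ σ, D σ * Complex.normSq (v σ) := by
      intro v
      simp only [dotProduct, mulVec_diagonal, Complex.re_sum, Pi.star_apply]
      refine Finset.sum_congr rfl fun σ _ => ?_
      simp [Complex.normSq_apply]; ring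
    refine ⟨diagonal fun σ => (D σ : ℂ), ?_, ⟨?_, ?_⟩, ?_, ?_, ?_⟩
    · exact isHermitian_diagonal_of_self_adjoint _ (funext fun σ => by simp)
    · rintro σ τ ⟨y, -, hne⟩
      exact diagonal_apply_ne _ fun e => hne (e ▸ rfl)
    · intro σ τ σ' τ' hin hout hout'
      by_cases heq : σ = τ
      · have : σ' = τ' := funext fun y => by
          by_cases hy : y ∈ ball x R
          · rw [(hin y hy).1, (hin y hy).2, heq]
          · exact hout' y hy
        rw [← heq, ← this, diagonal_apply_eq, diagonal_apply_eq]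
        simp only [hD, ho, (hin x hx).1]
      · have : σ' ≠ τ' := fun e => heq (funext fun y => by
          by_cases hy : y ∈ ball x R
          · rw [← (hin y hy).1, ← (hin y hy).2, e]
          · exact hout y hy)
        rw [diagonal_apply_ne _ heq, diagonal_apply_ne _ this]
    · rw [trace_diagonal, ← Complex.ofReal_sum, Complex.ofReal_eq_zero]
      simp only [hD, ho]
      rw [← Finset.mul_sum, sum_site x (fun a => sgn a - t)]
      rw [Finset.sum_sub_distrib, sum_sgn hq, Finset.sum_const, Finset.card_univ, Fintype.card_fin,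
        nsmul_eq_mul, ht]
      field_simp; ring
    · intro v
      rw [hform]
      refine (Finset.abs_sum_le_sum_abs _ _).trans ?_
      rw [Finset.mul_sum]
      refine Finset.sum_le_sum fun σ _ => ?_
      rw [abs_mul, abs_of_nonneg (Complex.normSq_nonneg _)]
      exact mul_le_mul_of_nonneg_right ((hD2 σ).trans hM) (Complex.normSq_nonneg _)
    · rw [hform]
      have : ∑ σ, D σ * Complex.normSq (Ω σ) = |e - t| := by
        simp only [hD, mul_assoc, ← Finset.mul_sum, sub_mul, Finset.sum_sub_distrib]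
        rw [hn1, ← he, mul_one, hs]
        split_ifs with h0
        · rw [one_mul, abs_of_nonneg h0]
        · rw [neg_one_mul, abs_of_neg (not_le.mp h0)]
      rw [this]
      exact (min_le_left _ _).trans hcase
  · have he1 : |e| ≤ 1 - 1 / q := by
      have ht2 : |t| = 1 - 2 / q := by
        rw [ht, abs_div, abs_of_pos hq0, abs_of_nonpos (by linarith : 2 - (q : ℝ) ≤ 0)]
        field_simp; ring
      have := abs_sub_abs_le_abs_sub e t
      have : 2 / (q : ℝ) = 2 * (1 / q) := by ring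
      linarith
    have hoo : ∀ σ τ : Cfg L q, σ x = τ x → o σ * o τ = 1 := fun σ τ e' => by
      simp only [ho, e', sgn_sq]
    set ball' := ball x R
    set T : Finset (Site L) → Matrix (Cfg L q) (Cfg L q) ℂ :=
      fun X σ τ => ((o σ * o τ - 1 : ℝ) : ℂ) * h X σ τ with hT
    set v' : (Cfg L q → ℂ) → Cfg L q → ℂ := fun v σ => (o σ : ℂ) * v σ with hv'
    have hform : ∀ X (v : Cfg L q → ℂ), (star v ⬝ᵥ (T X *ᵥ v)).re
        = (star (v' v) ⬝ᵥ (h X *ᵥ v' v)).re - (star v ⬝ᵥ (h X *ᵥ v)).re := by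
      intro X v
      simp only [dotProduct, mulVec, Complex.re_sum, Finset.mul_sum, ← Finset.sum_sub_distrib]
      refine Finset.sum_congr rfl fun σ _ => ?_
      refine Finset.sum_congr rfl fun τ _ => ?_
      rw [← Complex.sub_re]
      congr 1
      simp only [hT, hv', Pi.star_apply, star_mul, Complex.star_def, Complex.conj_ofReal]
      push_cast; ring
    have hv1 : ∀ v : Cfg L q → ℂ, ∑ σ, Complex.normSq (v' v σ) = ∑ σ, Complex.normSq (v σ) := by
      intro v
      refine Finset.sum_congr rfl fun σ _ => ?_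
      simp only [hv', map_mul, Complex.normSq_ofReal, ho, sgn_sq, one_mul]
    have hzero : ∀ X, X ∉ ball'.powerset → T X = 0 := by
      intro X hX
      ext σ τ
      obtain ⟨hH, hA, -, hsupp⟩ := hh X
      by_cases h0 : h X = 0
      · simp [hT, h0]
      by_cases hxX : x ∈ X
      · exact absurd (Finset.mem_powerset.mpr fun y hy => mem_ball.mpr ((hsupp h0).2 x hxX y hy)) hX
      · by_cases hxx : σ x = τ x
        · show ((o σ * o τ - 1 : ℝ) : ℂ) * h X σ τ = 0
          rw [hoo σ τ hxx]; simp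
        · show ((o σ * o τ - 1 : ℝ) : ℂ) * h X σ τ = 0
          rw [hA.1 σ τ ⟨x, hxX, hxx⟩, mul_zero]
    refine ⟨∑ X ∈ ball'.powerset, T X, ?_, ⟨?_, ?_⟩, ?_, ?_, ?_⟩
    · rw [IsHermitian, conjTranspose_sum]
      refine Finset.sum_congr rfl fun X _ => ?_
      ext σ τ
      show star (((o τ * o σ - 1 : ℝ) : ℂ) * h X τ σ) = ((o σ * o τ - 1 : ℝ) : ℂ) * h X σ τ
      rw [star_mul', (hh X).1.apply, Complex.star_def, Complex.conj_ofReal, mul_comm (o τ)]
    · rintro σ τ ⟨y, hy, hne⟩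
      rw [Matrix.sum_apply]
      refine Finset.sum_eq_zero fun X hX => ?_
      show ((o σ * o τ - 1 : ℝ) : ℂ) * h X σ τ = 0
      rw [(hh X).2.1.1 σ τ ⟨y, fun h => hy (Finset.mem_powerset.mp hX h), hne⟩, mul_zero]
    · intro σ τ σ' τ' hin hout hout'
      rw [Matrix.sum_apply, Matrix.sum_apply]
      refine Finset.sum_congr rfl fun X hX => ?_
      simp only [hT]
      rw [((hh X).2.1.mono (Finset.mem_powerset.mp hX)).2 σ τ σ' τ' hin hout hout']
      simp only [ho, (hin x hx).1, (hin x hx).2]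
    · rw [trace_sum]
      refine Finset.sum_eq_zero fun X _ => Finset.sum_eq_zero fun σ _ => ?_
      show ((o σ * o σ - 1 : ℝ) : ℂ) * h X σ σ = 0
      rw [hoo σ σ rfl]; simp
    · intro v
      rw [sum_mulVec, dotProduct_sum, Complex.re_sum]
      refine (Finset.abs_sum_le_sum_abs _ _).trans ?_
      refine (Finset.sum_le_sum (g := fun _ => 2 * J * ∑ σ, Complex.normSq (v σ)) fun X _ => ?_).trans ?_
      · rw [hform]
        have a1 := (hh X).2.2.1.form_le hJ (v' v)
        have a2 := (hh X).2.2.1.form_le hJ v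
        rw [hv1] at a1
        linarith [abs_sub ((star (v' v) ⬝ᵥ (h X *ᵥ v' v)).re) ((star v ⬝ᵥ (h X *ᵥ v)).re)]
      · rw [Finset.sum_const, Finset.card_powerset, nsmul_eq_mul]
        push_cast
        have hb : (2 : ℝ) ^ ball'.card ≤ 2 ^ ((2 * R + 1) ^ 2) :=
          pow_le_pow_right₀ one_le_two (ball_card x R)
        have hn : 0 ≤ ∑ σ, Complex.normSq (v σ) := Finset.sum_nonneg fun σ _ => Complex.normSq_nonneg _
        have := mul_le_mul_of_nonneg_right hb (by positivity : 0 ≤ 2 * J * ∑ σ, Complex.normSq (v σ))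
        linarith
    · have hfull : ∑ X ∈ ball'.powerset, T X = ∑ X, T X :=
        Finset.sum_subset (Finset.subset_univ _) fun X _ hX => hzero X hX
      rw [hfull, sum_mulVec, dotProduct_sum, Complex.re_sum]
      simp only [hform]
      rw [Finset.sum_sub_distrib, ← Complex.re_sum, ← Complex.re_sum, ← dotProduct_sum,
        ← dotProduct_sum, ← sum_mulVec, ← sum_mulVec, h2, dotProduct_smul, h1]
      have g := h3 (v' Ω)
      have e1 : star Ω ⬝ᵥ v' Ω = (e : ℂ) := by
        simp only [dotProduct, hv', he, Complex.ofReal_sum, Pi.star_apply]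
        refine Finset.sum_congr rfl fun σ _ => ?_
        rw [Complex.ofReal_mul, Complex.normSq_eq_conj_mul_self, Complex.star_def]; ring
      rw [normSq_dot, hv1, hn1, e1, Complex.normSq_ofReal] at g
      simp only [smul_eq_mul, mul_one, Complex.ofReal_re]
      have hee : e * e ≤ (1 - 1 / q) * (1 - 1 / q) := by
        rw [← abs_mul_abs_self e]; exact mul_le_mul he1 he1 (abs_nonneg _) (le_trans (abs_nonneg _) he1)
      have hq1 : 1 / (q : ℝ) ≤ 1 := by rw [div_le_one hq0]; linarith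
      have hq2 : (0 : ℝ) ≤ 1 / q := by positivity
      have : Δ * (1 / q) ≤ Δ * (1 - e * e) := mul_le_mul_of_nonneg_left (by nlinarith) hΔ.le
      have : Δ / (q : ℝ) = Δ * (1 / q) := by ring
      linarith [min_le_right (1 / (q : ℝ)) (Δ / q)]

end

end Vale.Agent.P356
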